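import Vale.Agent.P158.Main
import Vale.Agent.P158.Counts

/-!
# P158 Q1: planar first-passage percolation has no bigeodesics for every atomless weight law
-/

open MeasureTheory

namespace Vale.Agent.Results.P158.NoBigeodesics

open Vale.Agent.P158

/-- For every atomless law on the nonnegative reals, almost surely there is no bigeodesic. -/
theorem result : ∀ (G : Measure ℝ) [IsProbabilityMeasure G],
    (∀ x : ℝ, G {x} = 0) → G (Set.Iio 0) = 0 →
    ∀ᵐ t ∂law G, ¬ ∃ v : ℤ → V, IsBigeodesic t v := by
  intro G _ hna hnn
  exact noBigeodesic_of_counts hna hnn (a₁ := 4) (a₂ := 1) (b₁ := 16) (b₂ := 1)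
    (by norm_num) (by norm_num) (by norm_num) (by norm_num) card_branchPt_le card_linePt_le

end Vale.Agent.Results.P158.NoBigeodesics
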